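import Mathlib

set_option linter.all false

/-! P355: the relation (N8) for complex Hadamard matrices of order 6 with (N7). -/

namespace Vale.Agent.P355.H554

open Finset

/-- six distinct indices exhaust `Fin 6` -/
theorem sum_six {i j k l m n : Fin 6} (hd : [i, j, k, l, m, n].Nodup) (f : Fin 6 → ℂ) :
    ∑ c, f c = f i + f j + f k + f l + f m + f n := by
  have hinj : Function.Injective ![i, j, k, l, m, n] := by
    simp only [List.nodup_cons, List.mem_cons, not_or, List.not_mem_nil, not_false_eq_true,
      List.nodup_nil, and_true] at hd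
    intro a b hab
    fin_cases a <;> fin_cases b <;> simp_all
  have hbij : Function.Bijective ![i, j, k, l, m, n] := Finite.injective_iff_bijective.1 hinj
  rw [← hbij.sum_comp f, Fin.sum_univ_six]
  rfl

section

variable {u v : Fin 6 → Fin 6 → ℂ} (huv : ∀ p c, u p c * v p c = 1)
  (hrow : ∀ p q, p ≠ q → ∑ c, u p c * v q c = 0)
  {i j k l m n : Fin 6} (hd : [i, j, k, l, m, n].Nodup)

include huv hrow hd

/-- the square of the remaining two columns -/
theorem pair_sq (p q : Fin 6) :
    2 + u p m * v p n * (v q m * u q n) + u p n * v p m * (v q n * u q m) =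
      (u p i * v q i + u p j * v q j + u p k * v q k + u p l * v q l) *
        (v p i * u q i + v p j * u q j + v p k * u q k + v p l * u q l) -
      if p = q then 12 else 0 := by
  by_cases hpq : p = q
  · subst hpq
    rw [if_pos rfl]
    have h := huv p
    have e1 := h i
    have e2 := h j
    have e3 := h k
    have e4 := h l
    have e5 := h m
    have e6 := h n
    have e7 : u p m * v p n * (v p m * u p n) = 1 := by
      calc _ = (u p m * v p m) * (u p n * v p n) := by ring
        _ = 1 := by rw [e5, e6, one_mul]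
    have e8 : u p n * v p m * (v p n * u p m) = 1 := by
      calc _ = (u p m * v p m) * (u p n * v p n) := by ring
        _ = 1 := by rw [e5, e6, one_mul]
    rw [e7, e8, mul_comm (v p i), mul_comm (v p j), mul_comm (v p k), mul_comm (v p l), e1, e2, e3,
      e4]
    norm_num
  · rw [if_neg hpq, sub_zero]
    have h1 := hrow p q hpq
    have h2 := hrow q p (Ne.symm hpq)
    rw [sum_six hd] at h1 h2
    have h3 : u p i * v q i + u p j * v q j + u p k * v q k + u p l * v q l =
        -(u p m * v q m + u p n * v q n) := by linear_combination h1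
    have h4 : v p i * u q i + v p j * u q j + v p k * u q k + v p l * u q l =
        -(v p m * u q m + v p n * u q n) := by linear_combination h2
    rw [h3, h4]
    have em := huv p m
    have en := huv p n
    have fm := huv q m
    have fn := huv q n
    linear_combination (-1 : ℂ) * (u q m * v q m) * em - fm - (u q n * v q n) * en - fn

/-- The labelled form. -/
theorem n8l (h7a : ∑ p, u p i * u p j * v p k * v p l * (u p m * v p n) = 0)
    (h7b : ∑ p, u p i * u p j * v p k * v p l * (u p n * v p m) = 0) (q : Fin 6) :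
    2 * ∑ p, u p i * u p j * v p k * v p l =
      ∑ p, u p i * u p j * v p k * v p l *
        ((u p i * v q i + u p j * v q j + u p k * v q k + u p l * v q l) *
        (v p i * u q i + v p j * u q j + v p k * u q k + v p l * u q l)) -
      12 * (u q i * u q j * v q k * v q l) := by
  have h1 : ∑ p, u p i * u p j * v p k * v p l *
      (2 + u p m * v p n * (v q m * u q n) + u p n * v p m * (v q n * u q m)) =
      ∑ p, u p i * u p j * v p k * v p l *
        ((u p i * v q i + u p j * v q j + u p k * v q k + u p l * v q l) *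
        (v p i * u q i + v p j * u q j + v p k * u q k + v p l * u q l) -
          if p = q then 12 else 0) :=
    Finset.sum_congr rfl fun p _ => by rw [pair_sq huv hrow hd p q]
  have h2 : ∑ p, u p i * u p j * v p k * v p l *
      (2 + u p m * v p n * (v q m * u q n) + u p n * v p m * (v q n * u q m)) =
      2 * (∑ p, u p i * u p j * v p k * v p l) +
      (∑ p, u p i * u p j * v p k * v p l * (u p m * v p n)) * (v q m * u q n) +
      (∑ p, u p i * u p j * v p k * v p l * (u p n * v p m)) * (v q n * u q m) := by
    rw [Finset.mul_sum, Finset.sum_mul, Finset.sum_mul, ← Finset.sum_add_distrib,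
      ← Finset.sum_add_distrib]
    exact Finset.sum_congr rfl fun p _ => by ring
  rw [h7a, h7b, zero_mul, zero_mul, add_zero, add_zero] at h2
  rw [← h2, h1]
  simp only [mul_sub, Finset.sum_sub_distrib]
  congr 1
  simp only [mul_ite, mul_zero, Finset.sum_ite_eq', Finset.mem_univ, if_true]
  ring

/-- **(N8)** -/
theorem n8 (hcol : ∀ c d, c ≠ d → ∑ p, u p c * v p d = 0)
    (h7a : ∑ p, u p i * u p j * v p k * v p l * (u p m * v p n) = 0)
    (h7b : ∑ p, u p i * u p j * v p k * v p l * (u p n * v p m) = 0) :
    (∑ p, u p i * u p j * v p k * v p l) ^ 2 +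
      (∑ p, u p i * u p j * v p k ^ 2) * (∑ p, u p i * u p j * v p l ^ 2) +
      (∑ p, u p i ^ 2 * v p k * v p l) * (∑ p, u p j ^ 2 * v p k * v p l) =
      6 * ∑ p, u p i ^ 2 * u p j ^ 2 * v p k ^ 2 * v p l ^ 2 := by
  have hd' := hd
  simp only [List.nodup_cons, List.mem_cons, not_or, List.not_mem_nil, not_false_eq_true,
    List.nodup_nil, and_true] at hd'
  obtain ⟨⟨hij, hik, hil, -, -⟩, ⟨hjk, hjl, -, -⟩, -⟩ := hd'
  set G : ℂ := ∑ p, u p i * u p j * v p k * v p l with hG
  -- the sum over `q` of the labelled form, multiplied by `x q`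
  have h1 : ∑ q, (u q i * u q j * v q k * v q l) * (2 * G) =
      ∑ q, (u q i * u q j * v q k * v q l) * ((∑ p, u p i * u p j * v p k * v p l *
        ((u p i * v q i + u p j * v q j + u p k * v q k + u p l * v q l) *
        (v p i * u q i + v p j * u q j + v p k * u q k + v p l * u q l))) -
      12 * (u q i * u q j * v q k * v q l)) :=
    Finset.sum_congr rfl fun q _ => by rw [hG, n8l huv hrow hd h7a h7b q]
  rw [← Finset.sum_mul] at h1
  -- the moments
  let A : Fin 6 → Fin 6 → ℂ := fun c d => ∑ p, u p i * u p j * v p k * v p l * (u p c * v p d)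
  have hexp : ∀ q : Fin 6, (∑ p, u p i * u p j * v p k * v p l *
        ((u p i * v q i + u p j * v q j + u p k * v q k + u p l * v q l) *
        (v p i * u q i + v p j * u q j + v p k * u q k + v p l * u q l))) =
      A i i * (v q i * u q i) + A i j * (v q i * u q j) + A i k * (v q i * u q k) +
      A i l * (v q i * u q l) + A j i * (v q j * u q i) + A j j * (v q j * u q j) +
      A j k * (v q j * u q k) + A j l * (v q j * u q l) + A k i * (v q k * u q i) +
      A k j * (v q k * u q j) + A k k * (v q k * u q k) + A k l * (v q k * u q l) +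
      A l i * (v q l * u q i) + A l j * (v q l * u q j) + A l k * (v q l * u q k) +
      A l l * (v q l * u q l) := by
    intro q
    simp only [A, Finset.sum_mul, ← Finset.sum_add_distrib]
    exact Finset.sum_congr rfl fun p _ => by ring
  have hA : ∀ c d : Fin 6, ∑ q, (u q i * u q j * v q k * v q l) * (v q c * u q d) = A d c := by
    intro c d
    exact Finset.sum_congr rfl fun p _ => by ring
  have h2 : ∑ q, (u q i * u q j * v q k * v q l) * ((∑ p, u p i * u p j * v p k * v p l *
        ((u p i * v q i + u p j * v q j + u p k * v q k + u p l * v q l) *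
        (v p i * u q i + v p j * u q j + v p k * u q k + v p l * u q l))) -
      12 * (u q i * u q j * v q k * v q l)) =
      A i i * A i i + A i j * A j i + A i k * A k i + A i l * A l i + A j i * A i j +
      A j j * A j j + A j k * A k j + A j l * A l j + A k i * A i k + A k j * A j k +
      A k k * A k k + A k l * A l k + A l i * A i l + A l j * A j l + A l k * A k l +
      A l l * A l l - 12 * ∑ p, u p i ^ 2 * u p j ^ 2 * v p k ^ 2 * v p l ^ 2 := by
    have e : ∀ q : Fin 6, (u q i * u q j * v q k * v q l) * ((∑ p, u p i * u p j * v p k * v p l *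
        ((u p i * v q i + u p j * v q j + u p k * v q k + u p l * v q l) *
        (v p i * u q i + v p j * u q j + v p k * u q k + v p l * u q l))) -
        12 * (u q i * u q j * v q k * v q l)) =
      A i i * ((u q i * u q j * v q k * v q l) * (v q i * u q i)) +
      A i j * ((u q i * u q j * v q k * v q l) * (v q i * u q j)) +
      A i k * ((u q i * u q j * v q k * v q l) * (v q i * u q k)) +
      A i l * ((u q i * u q j * v q k * v q l) * (v q i * u q l)) +
      A j i * ((u q i * u q j * v q k * v q l) * (v q j * u q i)) +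
      A j j * ((u q i * u q j * v q k * v q l) * (v q j * u q j)) +
      A j k * ((u q i * u q j * v q k * v q l) * (v q j * u q k)) +
      A j l * ((u q i * u q j * v q k * v q l) * (v q j * u q l)) +
      A k i * ((u q i * u q j * v q k * v q l) * (v q k * u q i)) +
      A k j * ((u q i * u q j * v q k * v q l) * (v q k * u q j)) +
      A k k * ((u q i * u q j * v q k * v q l) * (v q k * u q k)) +
      A k l * ((u q i * u q j * v q k * v q l) * (v q k * u q l)) +
      A l i * ((u q i * u q j * v q k * v q l) * (v q l * u q i)) +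
      A l j * ((u q i * u q j * v q k * v q l) * (v q l * u q j)) +
      A l k * ((u q i * u q j * v q k * v q l) * (v q l * u q k)) +
      A l l * ((u q i * u q j * v q k * v q l) * (v q l * u q l)) -
      12 * (u q i ^ 2 * u q j ^ 2 * v q k ^ 2 * v q l ^ 2) := by
      intro q
      rw [hexp q]
      ring
    simp only [e, Finset.sum_add_distrib, Finset.sum_sub_distrib, ← Finset.mul_sum, hA]
  have hcc : ∀ c : Fin 6, A c c = G := by
    intro c
    exact Finset.sum_congr rfl fun p _ => by rw [huv p c, mul_one]
  have hki : A k i = 0 := by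
    rw [← hcol j l hjl]
    refine Finset.sum_congr rfl fun p _ => ?_
    linear_combination (u p j * v p l) * (u p k * v p k) * huv p i + (u p j * v p l) * huv p k
  have hli : A l i = 0 := by
    rw [← hcol j k hjk]
    refine Finset.sum_congr rfl fun p _ => ?_
    linear_combination (u p j * v p k) * (u p l * v p l) * huv p i + (u p j * v p k) * huv p l
  have hkj : A k j = 0 := by
    rw [← hcol i l hil]
    refine Finset.sum_congr rfl fun p _ => ?_
    linear_combination (u p i * v p l) * (u p k * v p k) * huv p j + (u p i * v p l) * huv p k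
  have hlj : A l j = 0 := by
    rw [← hcol i k hik]
    refine Finset.sum_congr rfl fun p _ => ?_
    linear_combination (u p i * v p k) * (u p l * v p l) * huv p j + (u p i * v p k) * huv p l
  have hIJ : A i j = ∑ p, u p i ^ 2 * v p k * v p l := by
    refine Finset.sum_congr rfl fun p _ => ?_
    linear_combination (u p i ^ 2 * v p k * v p l) * huv p j
  have hJI : A j i = ∑ p, u p j ^ 2 * v p k * v p l := by
    refine Finset.sum_congr rfl fun p _ => ?_
    linear_combination (u p j ^ 2 * v p k * v p l) * huv p i
  have hKL : A k l = ∑ p, u p i * u p j * v p l ^ 2 := by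
    refine Finset.sum_congr rfl fun p _ => ?_
    linear_combination (u p i * u p j * v p l ^ 2) * huv p k
  have hLK : A l k = ∑ p, u p i * u p j * v p k ^ 2 := by
    refine Finset.sum_congr rfl fun p _ => ?_
    linear_combination (u p i * u p j * v p k ^ 2) * huv p l
  rw [h2, hcc, hcc, hcc, hcc, hki, hli, hkj, hlj, hIJ, hJI, hKL, hLK, ← hG] at h1
  linear_combination (-1 / 2 : ℂ) * h1

end

/-- **(N8)** for a unimodular `u` with orthogonal rows and columns and (N7). -/
theorem n8_star {u : Fin 6 → Fin 6 → ℂ} (hu : ∀ p c, u p c * star (u p c) = 1)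
    (hrow : ∀ p q, p ≠ q → ∑ c, u p c * star (u q c) = 0)
    (hcol : ∀ c d, c ≠ d → ∑ p, u p c * star (u p d) = 0)
    (h7 : ∀ b0 b1 b2 b3 b4 b5 : Fin 6, [b0, b1, b2, b3, b4, b5].Nodup →
      ∑ p, u p b0 * u p b1 * u p b2 * (star (u p b3) * star (u p b4) * star (u p b5)) = 0)
    {i j k l : Fin 6} (hd : [i, j, k, l].Nodup) :
    (∑ p, u p i * u p j * star (u p k) * star (u p l)) ^ 2 +
      (∑ p, u p i * u p j * star (u p k) ^ 2) * (∑ p, u p i * u p j * star (u p l) ^ 2) +
      (∑ p, u p i ^ 2 * star (u p k) * star (u p l)) *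
        (∑ p, u p j ^ 2 * star (u p k) * star (u p l)) =
      6 * ∑ p, u p i ^ 2 * u p j ^ 2 * star (u p k) ^ 2 * star (u p l) ^ 2 := by
  obtain ⟨m, n, h6⟩ : ∃ m n : Fin 6, [i, j, k, l, m, n].Nodup := by
    revert i j k l
    decide
  have e1 : [i, j, m, k, l, n].Nodup := by
    simp only [List.nodup_cons, List.mem_cons, not_or, List.not_mem_nil, not_false_eq_true,
      List.nodup_nil, and_true] at h6 ⊢
    obtain ⟨⟨a1, a2, a3, a4, a5⟩, ⟨b1, b2, b3, b4⟩, ⟨c1, c2, c3⟩, ⟨d1, d2⟩, f1⟩ := h6
    exact ⟨⟨a1, a4, a2, a3, a5⟩, ⟨b3, b1, b2, b4⟩, ⟨Ne.symm c2, Ne.symm d1, f1⟩, ⟨c1, c3⟩, d2⟩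
  have e2 : [i, j, n, k, l, m].Nodup := by
    simp only [List.nodup_cons, List.mem_cons, not_or, List.not_mem_nil, not_false_eq_true,
      List.nodup_nil, and_true] at h6 ⊢
    obtain ⟨⟨a1, a2, a3, a4, a5⟩, ⟨b1, b2, b3, b4⟩, ⟨c1, c2, c3⟩, ⟨d1, d2⟩, f1⟩ := h6
    exact ⟨⟨a1, a5, a2, a3, a4⟩, ⟨b4, b1, b2, b3⟩, ⟨Ne.symm c3, Ne.symm d2, Ne.symm f1⟩,
      ⟨c1, c2⟩, d1⟩
  refine n8 (v := fun p c => star (u p c)) hu hrow h6 hcol ?_ ?_
  · rw [← h7 _ _ _ _ _ _ e1]
    exact Finset.sum_congr rfl fun p _ => by ring
  · rw [← h7 _ _ _ _ _ _ e2]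
    exact Finset.sum_congr rfl fun p _ => by ring

end Vale.Agent.P355.H554
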